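import Vale.Agent.P328.Coins
import Vale.Agent.Lib.PolyTime.More

/-! The sampler as a program on lists; it runs in polynomial time. -/

namespace Vale.Agent.P328

open Vale.Agent.Lib.PolyTime

section General

variable {α : Type} [Enc α]

@[fun_prop] theorem pt_size {f : α → ℕ} (hf : PT f) : PT fun a => Nat.size (f a) :=
  hf.bits.length.congr fun _ => (Nat.size_eq_bits_len _).symm

theorem pt_two_pow {f : α → ℕ} (hf : PT f) (hb : PB f) : PT fun a => 2 ^ f a := by
  have key : ∀ k : ℕ, (fun s : ℕ => s + s)^[k] 1 = 2 ^ k := fun k => by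
    induction k with
    | zero => rfl
    | succ k ih => rw [Function.iterate_succ_apply', ih]; ring
  refine (PT.iterate (f := fun _ (s : ℕ) => s + s) (i := fun _ => 1) (by fun_prop) hf hb
    (by fun_prop) (hb.add (PB.const 1)) fun a k hk => ?_).congr fun a => (key _).symm
  rw [key, sz_nat, Nat.size_pow]; omega

@[fun_prop] theorem pt_pow {f : α → ℕ} (k : ℕ) (hf : PT f) : PT fun a => f a ^ k := by
  induction k with
  | zero => exact (PT.const 1).congr fun _ => pow_zero _
  | succ k ih => exact (ih.mul hf).congr fun _ => pow_succ _ _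

theorem foldr_div (b : ℕ) (l : List Bool) : l.foldr (fun (d : Bool) (s : ℕ × ℕ) =>
    (s.1 + s.1 + if d = true then 1 else 0,
      if 0 < b ∧ (s.2 + s.2 + 1) * b ≤ s.1 + s.1 + if d = true then 1 else 0 then s.2 + s.2 + 1
      else s.2 + s.2)) (0, 0) = (val l, val l / b) := by
  induction l with
  | nil => simp [val]
  | cons d l ih =>
    have e : val (d :: l) = val l + val l + if d = true then 1 else 0 := rfl
    rw [List.foldr_cons, ih, e]
    have hd : (if d = true then 1 else 0) ≤ 1 := by split_ifs <;> omega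
    generalize (if d = true then 1 else 0) = x at hd
    generalize val l = v
    refine Prod.ext rfl ?_
    rcases Nat.eq_zero_or_pos b with rfl | hb
    · simp
    have h1 := Nat.div_add_mod v b
    have h2 := Nat.mod_lt v hb
    dsimp only
    rw [mul_comm] at h1
    rw [eq_comm, Nat.div_eq_iff hb]
    split_ifs with h <;> simp only [add_mul, one_mul, hb, true_and] at h ⊢ <;> omega

theorem val_bits (k : ℕ) : val k.bits = k :=
  foldr_bits k _ id rfl fun b k => by cases b <;> simp <;> ring

theorem size_double (s : ℕ) {x : ℕ} (hx : x ≤ 1) : Nat.size (s + s + x) ≤ Nat.size s + 1 := by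
  rw [Nat.size_le, pow_succ]
  have := Nat.lt_size_self s
  omega

@[fun_prop] theorem pt_div {f g : α → ℕ} (hf : PT f) (hg : PT g) : PT fun a => f a / g a := by
  have h := PT.foldr_add (f := fun a (d : Bool) (s : ℕ × ℕ) =>
    (s.1 + s.1 + if d = true then 1 else 0,
      if 0 < g a ∧ (s.2 + s.2 + 1) * g a ≤ s.1 + s.1 + if d = true then 1 else 0 then s.2 + s.2 + 1
      else s.2 + s.2)) (i := fun _ => (0, 0)) (by fun_prop) hf.bits (by fun_prop) (PB.const 3)
    fun a s d _ => by
      have h1 := size_double s.1 (x := if d = true then 1 else 0) (by split_ifs <;> omega)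
      have h2 := size_double s.2 (x := 1) le_rfl
      have h3 := size_double s.2 (x := 0) zero_le_one
      rw [sz_prod s]
      simp only [sz_pair, sz_nat, add_zero] at *
      split_ifs at * <;> omega
  exact h.snd.congr fun a => by rw [foldr_div, val_bits]

@[fun_prop] theorem pt_val {w : α → List Bool} (hw : PT w) : PT fun a => val (w a) :=
  PT.foldr_add (f := fun _ (d : Bool) (s : ℕ) => s + s + if d = true then 1 else 0)
    (i := fun _ => 0) (by fun_prop) hw (by fun_prop) (PB.const 1)
    fun a s d _ => size_double s (by split_ifs <;> omega)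

theorem pt_chunks {B k : α → ℕ} {w : α → List Bool} (hB : PT B) (hk : PT k) (hb : PB k)
    (hw : PT w) : PT fun a => chunks (B a) (k a) (w a) := by
  have := PT.range hk hb
  unfold chunks; fun_prop

@[fun_prop] theorem pt_range_length {β : Type} [Enc β] [Inhabited β] {l : α → List β} (hl : PT l) :
    PT fun a => List.range (l a).length := PT.idx hl

/-- The least power of two above a quotient. -/
def sc (u P : ℕ) : ℕ := 2 ^ Nat.size (u / P)

@[fun_prop] theorem pt_sc {f g : α → ℕ} (hf : PT f) (hg : PT g) : PT fun a => sc (f a) (g a) :=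
  pt_two_pow (pt_size (pt_div hf hg)) (pt_div hf hg).1

/-- The position of a largest entry. -/
def amax (R : List ℕ) : ℕ :=
  ((List.range R.length).find? fun i => decide (R.getD i 0 = lmax R)).getD 0

@[fun_prop] theorem pt_amax {f : α → List ℕ} (hf : PT f) : PT fun a => amax (f a) := by
  unfold amax; fun_prop

end General

/-- An instance: row sums, column sums, inverse accuracy. -/
abbrev Ins : Type := List ℕ × List ℕ × ℕ

/-- The logarithm of the scale parameter. -/
def qq (a : Ins) : ℕ := Nat.size (256 + a.1.length + a.2.1.length + Nat.size a.2.2)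
/-- The scale parameter. -/
def QQ (a : Ins) : ℕ := 2 ^ qq a
/-- The cells. -/
def cells (a : Ins) : List ℕ := List.range (a.1.length * a.2.1.length)
/-- Cells in the largest row or column. -/
def starL (a : Ins) (l : ℕ) : Bool :=
  decide (l / a.2.1.length = amax a.1 ∨ l % a.2.1.length = amax a.2.1)
/-- Block sides. -/
def hL (a : Ins) (l : ℕ) : ℕ := if starL a l = true then 1 else
  sc (min (a.1.getD (l / a.2.1.length) 0) (a.2.1.getD (l % a.2.1.length) 0)) (QQ a ^ 17)
/-- Numbers of blocks. -/
def ML (a : Ins) (l : ℕ) : ℕ := if starL a l = true then 1 else QQ a ^ 17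
/-- Row sums. -/
def rowS (a : Ins) (X : List ℕ) (i : ℕ) : ℕ :=
  ((List.range a.2.1.length).map fun j => X.getD (i * a.2.1.length + j) 0).sum
/-- Column sums. -/
def colS (a : Ins) (X : List ℕ) (j : ℕ) : ℕ :=
  ((List.range a.1.length).map fun i => X.getD (i * a.2.1.length + j) 0).sum
/-- The largest row sum. -/
def r0 (a : Ins) : ℕ := a.1.getD (amax a.1) 0
/-- The largest column sum. -/
def c0 (a : Ins) : ℕ := a.2.1.getD (amax a.2.1) 0
/-- One penalty term. -/
def pen (a : Ins) (v g : ℕ) : ℕ := 8 * qq a * QQ a * v / g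
/-- The penalty. -/
def kfL (a : Ins) (X : List ℕ) : ℕ :=
  (pen a (a.1.sum - (r0 a + c0 a) - ((cells a).map fun l => hL a l - 1).sum - X.sum)
      (2 * sc (min (r0 a) (c0 a)) (QQ a ^ 6)) +
    (((List.range a.1.length).map fun i =>
        pen a (rowS a X i - a.1.getD i 0) (sc (a.1.getD i 0) (QQ a ^ 12))).sum +
      ((List.range a.2.1.length).map fun j =>
        pen a (colS a X j - a.2.1.getD j 0) (sc (a.2.1.getD j 0) (QQ a ^ 12))).sum)) / QQ a
/-- The penalty of a block. -/
def kzL (a : Ins) (Z : List ℕ) : ℕ := kfL a ((cells a).map fun l => hL a l * Z.getD l 0)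
/-- Changing one coordinate. -/
def setL (a : Ins) (Z : List ℕ) (l v : ℕ) : List ℕ :=
  (cells a).map fun k => if k = l then v else Z.getD k 0
/-- The proposed move. -/
def mvL (a : Ins) (Z : List ℕ) (l : ℕ) (d : Bool) : List ℕ :=
  if d = true then (if Z.getD l 0 + 1 < ML a l then setL a Z l (Z.getD l 0 + 1) else Z)
  else setL a Z l (Z.getD l 0 - 1)
/-- Accept or reject. -/
def tryL (a : Ins) (Z Z' : List ℕ) (t : List Bool) : List ℕ :=
  if (t.take (kzL a Z' - kzL a Z)).all id = true then Z' else Z
/-- One step. -/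
def stepL (a : Ins) (Z : List ℕ) (b : List Bool) : List ℕ :=
  if val (b.take (2 * qq a)) < a.1.length * a.2.1.length then
    tryL a Z (mvL a Z (val (b.take (2 * qq a))) ((b.drop (2 * qq a)).headD false))
      (b.drop (2 * qq a)).tail
  else Z
/-- A run of the chain. -/
def chainL (a : Ins) (w : List Bool) : List ℕ :=
  (chunks (2 * qq a + (QQ a ^ 21 + 1)) (QQ a ^ 226) w).foldl (stepL a) ((cells a).map fun _ => 0)
/-- The random point. -/
def pointL (a : Ins) (w : List Bool) : List ℕ := (cells a).map fun l =>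
  hL a l * (chainL a w).getD l 0 +
    val (((w.drop (QQ a ^ 226 * (2 * qq a + (QQ a ^ 21 + 1)))).drop (l * Nat.size a.1.sum)).take
      (Nat.size a.1.sum)) % hL a l
/-- Feasibility. -/
def feasL (a : Ins) (X : List ℕ) : Bool := decide (a.1.sum - (r0 a + c0 a) - X.sum = 0) &&
  ((List.range a.1.length).all (fun i => decide (rowS a X i - a.1.getD i 0 = 0)) &&
    (List.range a.2.1.length).all fun j => decide (colS a X j - a.2.1.getD j 0 = 0))
/-- Completion to a table. -/
def fillL (a : Ins) (X : List ℕ) : List ℕ := (cells a).map fun l =>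
  if l / a.2.1.length = amax a.1 then
    (if l % a.2.1.length = amax a.2.1 then X.sum + (r0 a + c0 a) - a.1.sum
    else a.2.1.getD (l % a.2.1.length) 0 - colS a X (l % a.2.1.length))
  else if l % a.2.1.length = amax a.2.1 then
    a.1.getD (l / a.2.1.length) 0 - rowS a X (l / a.2.1.length) else X.getD l 0
/-- The north-west corner table. -/
def nwL (a : Ins) : List ℕ := (cells a).map fun l =>
  min (a.1.take (l / a.2.1.length + 1)).sum (a.2.1.take (l % a.2.1.length + 1)).sum -
    max (a.1.take (l / a.2.1.length)).sum (a.2.1.take (l % a.2.1.length)).sum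
/-- One attempt. -/
def attL (a : Ins) (Y : List ℕ) (w : List Bool) : List ℕ :=
  if feasL a (pointL a w) = true then fillL a (pointL a w) else Y
/-- The sampler. -/
def mainL (a : Ins) (w : List Bool) : List ℕ :=
  (chunks (QQ a ^ 226 * (2 * qq a + (QQ a ^ 21 + 1)) +
    a.1.length * a.2.1.length * Nat.size a.1.sum) (QQ a ^ 2) w).foldl (attL a) (nwL a)
/-- The sampler on its input list. -/
def sampler (x : List ℕ) : List ℕ :=
  mainL ((x.drop 3).take (x.getD 0 0), (x.drop (3 + x.getD 0 0)).take (x.getD 1 0), x.getD 2 0)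
    ((x.drop (3 + x.getD 0 0 + x.getD 1 0)).map fun t => decide (t = 1))

variable {α : Type} [Enc α] {a : α → Ins} {X Z Y : α → List ℕ} {l v k : α → ℕ}
  {w : α → List Bool} {d : α → Bool}

@[fun_prop] theorem pt_qq (ha : PT a) : PT fun x => qq (a x) := by unfold qq; fun_prop

theorem two_pow_size_le {x : ℕ} (hx : 0 < x) : 2 ^ Nat.size x ≤ 2 * x := by
  have h1 := Nat.size_pos.2 hx
  have h2 := (Nat.lt_size (m := Nat.size x - 1) (n := x)).1 (by omega)
  rw [show Nat.size x = Nat.size x - 1 + 1 by omega, pow_succ]; omega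

theorem pb_QQ (ha : PT a) : PB fun x => QQ (a x) :=
  ((PB.const 2).mul ((((PB.const 256).add ha.fst.pb_length).add ha.snd.fst.pb_length).add
    ha.snd.snd.1)).of_le fun _ => two_pow_size_le (by omega)

@[fun_prop] theorem pt_QQ (ha : PT a) : PT fun x => QQ (a x) :=
  pt_two_pow (pt_qq ha) ((pb_QQ ha).of_le fun _ => Nat.lt_two_pow_self.le)

@[fun_prop] theorem pt_cells (ha : PT a) : PT fun x => cells (a x) :=
  PT.range (by fun_prop) (ha.fst.pb_length.mul ha.snd.fst.pb_length)

@[fun_prop] theorem pt_starL (ha : PT a) (hl : PT l) : PT fun x => starL (a x) (l x) := by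
  unfold starL; fun_prop

@[fun_prop] theorem pt_hL (ha : PT a) (hl : PT l) : PT fun x => hL (a x) (l x) := by
  unfold hL; fun_prop

@[fun_prop] theorem pt_ML (ha : PT a) (hl : PT l) : PT fun x => ML (a x) (l x) := by
  unfold ML; fun_prop

@[fun_prop] theorem pt_rowS (ha : PT a) (hX : PT X) (hl : PT l) :
    PT fun x => rowS (a x) (X x) (l x) := by
  unfold rowS; fun_prop

@[fun_prop] theorem pt_colS (ha : PT a) (hX : PT X) (hl : PT l) :
    PT fun x => colS (a x) (X x) (l x) := by
  unfold colS; fun_prop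

@[fun_prop] theorem pt_r0 (ha : PT a) : PT fun x => r0 (a x) := by unfold r0; fun_prop

@[fun_prop] theorem pt_c0 (ha : PT a) : PT fun x => c0 (a x) := by unfold c0; fun_prop

@[fun_prop] theorem pt_pen (ha : PT a) (hl : PT l) (hv : PT v) :
    PT fun x => pen (a x) (l x) (v x) := by
  unfold pen; fun_prop

@[fun_prop] theorem pt_kfL (ha : PT a) (hX : PT X) : PT fun x => kfL (a x) (X x) := by
  unfold kfL; fun_prop

@[fun_prop] theorem pt_kzL (ha : PT a) (hX : PT X) : PT fun x => kzL (a x) (X x) := by
  unfold kzL; fun_prop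

@[fun_prop] theorem pt_setL (ha : PT a) (hX : PT X) (hl : PT l) (hv : PT v) :
    PT fun x => setL (a x) (X x) (l x) (v x) := by
  unfold setL; fun_prop

@[fun_prop] theorem pt_mvL (ha : PT a) (hX : PT X) (hl : PT l) (hd : PT d) :
    PT fun x => mvL (a x) (X x) (l x) (d x) := by
  unfold mvL; fun_prop

@[fun_prop] theorem pt_tryL (ha : PT a) (hX : PT X) (hZ : PT Z) (hw : PT w) :
    PT fun x => tryL (a x) (X x) (Z x) (w x) := by
  unfold tryL; simp only [Function.id_def]; fun_prop

@[fun_prop] theorem pt_stepL (ha : PT a) (hX : PT X) (hw : PT w) :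
    PT fun x => stepL (a x) (X x) (w x) := by
  unfold stepL; fun_prop

theorem getD_le {Z : List ℕ} {B : ℕ} (h : ∀ z ∈ Z, z ≤ B) (l : ℕ) : Z.getD l 0 ≤ B := by
  rw [List.getD_eq_getElem?_getD]
  rcases hl : Z[l]? with _ | z
  · simp
  · exact h z (List.mem_of_getElem? hl)

theorem stepL_inv (a : Ins) (Z : List ℕ) (b : List Bool)
    (h : Z.length = (cells a).length ∧ ∀ z ∈ Z, z ≤ QQ a ^ 17) :
    (stepL a Z b).length = (cells a).length ∧ ∀ z ∈ stepL a Z b, z ≤ QQ a ^ 17 := by
  have hs : ∀ l v, v ≤ QQ a ^ 17 →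
      (setL a Z l v).length = (cells a).length ∧ ∀ z ∈ setL a Z l v, z ≤ QQ a ^ 17 := by
    refine fun l v hv => ⟨by simp [setL], fun z hz => ?_⟩
    obtain ⟨k, -, rfl⟩ := List.mem_map.1 hz
    split_ifs
    exacts [hv, getD_le h.2 k]
  have hm : ∀ l d, (mvL a Z l d).length = (cells a).length ∧ ∀ z ∈ mvL a Z l d, z ≤ QQ a ^ 17 := by
    intro l d
    have := getD_le h.2 l
    have h1 : ML a l ≤ QQ a ^ 17 := by
      unfold ML; split_ifs
      exacts [Nat.pow_pos (Nat.pow_pos two_pos), le_rfl]
    unfold mvL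
    split_ifs
    exacts [hs _ _ (by omega), h, hs _ _ (by omega)]
  unfold stepL tryL
  split_ifs
  exacts [hm _ _, h, h]

@[fun_prop] theorem pt_chainL (ha : PT a) (hw : PT w) : PT fun x => chainL (a x) (w x) :=
  PT.foldl_inv (f := fun x => stepL (a x)) (by fun_prop)
    (pt_chunks (by fun_prop) (by fun_prop) ((pb_QQ ha).pow _) hw) (by fun_prop)
    ((pt_cells ha).pb_length.mul (((pb_QQ ha).pow 17).lin 2 2))
    (fun x Z => Z.length = (cells (a x)).length ∧ ∀ z ∈ Z, z ≤ QQ (a x) ^ 17)
    (fun x => by simp) (fun x Z b _ h => stepL_inv _ Z b h)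
    fun x Z h => h.1 ▸ sz_le_of_forall fun z hz => (sz_nat_le z).trans (h.2 z hz)

@[fun_prop] theorem pt_pointL (ha : PT a) (hw : PT w) : PT fun x => pointL (a x) (w x) := by
  unfold pointL; fun_prop

@[fun_prop] theorem pt_feasL (ha : PT a) (hX : PT X) : PT fun x => feasL (a x) (X x) := by
  unfold feasL; fun_prop

@[fun_prop] theorem pt_fillL (ha : PT a) (hX : PT X) : PT fun x => fillL (a x) (X x) := by
  unfold fillL; fun_prop

@[fun_prop] theorem pt_nwL (ha : PT a) : PT fun x => nwL (a x) := by
  unfold nwL; fun_prop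

@[fun_prop] theorem pt_attL (ha : PT a) (hX : PT X) (hw : PT w) :
    PT fun x => attL (a x) (X x) (w x) := by
  unfold attL; fun_prop

@[fun_prop] theorem pt_mainL (ha : PT a) (hw : PT w) : PT fun x => mainL (a x) (w x) := by
  have hc : PT fun x => chunks (QQ (a x) ^ 226 * (2 * qq (a x) + (QQ (a x) ^ 21 + 1)) +
      (a x).1.length * (a x).2.1.length * Nat.size (a x).1.sum) (QQ (a x) ^ 2) (w x) :=
    pt_chunks (by fun_prop) (by fun_prop) ((pb_QQ ha).pow _) hw
  have h1 : PT fun p : α × List Bool => fillL (a p.1) (pointL (a p.1) p.2) := by fun_prop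
  obtain ⟨D, hD, h⟩ := h1.1.along hc
  refine PT.foldl_add (f := fun x => attL (a x)) (by fun_prop) hc (by fun_prop) hD
    fun x Y b hb => ?_
  have := h x b hb
  unfold attL
  split_ifs <;> simp only at this <;> omega

theorem pt_sampler : PT sampler := by unfold sampler; fun_prop

end Vale.Agent.P328
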