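import Vale.Agent.P317.Flow

/-! The sharp flow lemma for slots with two-point colours. -/

namespace Vale.Agent.P328

open Finset Vale.Agent.P317

variable {Y : Type}

/-- The sum of `H` over all ways to choose one of the two elements of each slot. -/
def S : List (Y × Y) → (Multiset Y → ℝ) → ℝ
  | [], H => H 0
  | l :: t, H => S t (link l.1 H) + S t (link l.2 H)

theorem S_lin (α β : ℝ) : ∀ (t : List (Y × Y)) (H H' : Multiset Y → ℝ),
    S t (fun s => α * H s + β * H' s) = α * S t H + β * S t H'
  | [], _, _ => rfl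
  | l :: t, H, H' => by
    have h1 := S_lin α β t (link l.1 H) (link l.1 H')
    have h2 := S_lin α β t (link l.2 H) (link l.2 H')
    simp only [S]
    unfold link at *
    rw [h1, h2]; ring

theorem S_smul (α : ℝ) (t : List (Y × Y)) (H : Multiset Y → ℝ) :
    S t (fun s => α * H s) = α * S t H := by
  have := S_lin α 0 t H H
  simpa using this

theorem S_add (t : List (Y × Y)) (H H' : Multiset Y → ℝ) :
    S t (fun s => H s + H' s) = S t H + S t H' := by
  have := S_lin 1 1 t H H'
  simpa using this

theorem S_sum {ι : Type} (u : Finset ι) (t : List (Y × Y)) (H : ι → Multiset Y → ℝ) :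
    S t (fun s => ∑ i ∈ u, H i s) = ∑ i ∈ u, S t (H i) := by
  classical
  induction u using Finset.induction_on with
  | empty => simpa using S_smul 0 t fun _ => 0
  | insert a u ha ih => simp only [sum_insert ha, S_add, ih]

theorem S_mono : ∀ (t : List (Y × Y)) {H H' : Multiset Y → ℝ}, (∀ s, H s ≤ H' s) → S t H ≤ S t H'
  | [], _, _, h => h 0
  | _ :: t, _, _, h => add_le_add (S_mono t fun _ => h _) (S_mono t fun _ => h _)

theorem S_pos : ∀ (t : List (Y × Y)) {H : Multiset Y → ℝ}, (∀ s, 0 < H s) → 0 < S t H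
  | [], _, h => h 0
  | _ :: t, _, h => add_pos (S_pos t fun _ => h _) (S_pos t fun _ => h _)

theorem S_nonneg : ∀ (t : List (Y × Y)) {H : Multiset Y → ℝ}, (∀ s, 0 ≤ H s) → 0 ≤ S t H
  | [], _, h => h 0
  | _ :: t, _, h => add_nonneg (S_nonneg t fun _ => h _) (S_nonneg t fun _ => h _)

theorem S_perm {t t' : List (Y × Y)} (h : t.Perm t') : ∀ H : Multiset Y → ℝ, S t H = S t' H := by
  induction h with
  | nil => intro H; rfl
  | cons l _ ih => intro H; simp only [S, ih]
  | swap l l' t =>
    intro H
    simp only [S]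
    rw [link_comm l.1 l'.1, link_comm l.1 l'.2, link_comm l.2 l'.1, link_comm l.2 l'.2]; ring
  | trans _ _ ih1 ih2 => intro H; rw [ih1, ih2]

theorem S_cont : ∀ (t : List (Y × Y)) {H : ℝ → Multiset Y → ℝ},
    (∀ s, Continuous fun ε => H ε s) → Continuous fun ε => S t (H ε)
  | [], _, h => h 0
  | l :: t, H, h => (S_cont t (H := fun ε => link l.1 (H ε)) fun _ => h _).add
      (S_cont t (H := fun ε => link l.2 (H ε)) fun _ => h _)

theorem S_erase [DecidableEq Y] {t : List (Y × Y)} {l : Y × Y} (hl : l ∈ t)
    (H : Multiset Y → ℝ) : S t H = S (t.erase l) (link l.1 H) + S (t.erase l) (link l.2 H) :=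
  S_perm (List.perm_cons_erase hl) H

theorem S_erase_le [DecidableEq Y] {t : List (Y × Y)} {l : Y × Y} (hl : l ∈ t)
    {H : Multiset Y → ℝ} (h : ∀ s, 0 ≤ H s) : S (t.erase l) (link l.2 H) ≤ S t H := by
  rw [S_erase hl]
  exact le_add_of_nonneg_left (S_nonneg _ fun _ => h _)

theorem S_cons_erase [DecidableEq Y] {t : List (Y × Y)} (l : Y × Y) {l' : Y × Y} (hl : l' ∈ t)
    (H : Multiset Y → ℝ) : S ((l :: t).erase l') H =
      S (t.erase l') (link l.1 H) + S (t.erase l') (link l.2 H) := by
  by_cases h : l = l'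
  · subst h; rw [List.erase_cons_head, S_erase hl]
  · rw [List.erase_cons_tail (by simpa using h)]; rfl

variable [Fintype Y]

theorem orth_le {q : Y → Y → ℝ} (hs : ∀ a b, q a b = q b a) (l : Y → ℝ)
    (h : ∀ x : Y → ℝ, ∑ a, x a * l a = 0 → bil q x x ≤ 0) {v x : Y → ℝ} (hpos : 0 < bil q v v) :
    bil q x x * bil q v v ≤ bil q x v ^ 2 := by
  have hl : ∑ a, v a * l a ≠ 0 := fun h0 => absurd (h v h0) (not_le.2 hpos)
  set t := (∑ a, x a * l a) / ∑ a, v a * l a with ht
  have := h (fun a => 1 * x a + (-t) * v a) (by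
    have : ∑ a, (1 * x a + -t * v a) * l a = ∑ a, x a * l a - t * ∑ a, v a * l a := by
      rw [mul_sum, ← sum_sub_distrib]; exact sum_congr rfl fun a _ => by ring
    rw [this, ht, div_mul_cancel₀ _ hl, sub_self])
  rw [bil_sq hs] at this
  nlinarith [sq_nonneg (bil q x v - t * bil q v v)]

/-- The reverse Cauchy-Schwarz inequality. -/
theorem rcs {q : Y → Y → ℝ} (hh : Hyp q) (hs : ∀ a b, q a b = q b a) {v : Y → ℝ}
    (hpos : 0 < bil q v v) (x : Y → ℝ) : bil q x x * bil q v v ≤ bil q x v ^ 2 :=
  orth_le hs (fun a => ∑ b, q a b) (fun x hx => hh (fun _ => 1) (fun _ => one_pos) x (by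
    rw [← hx]; simp only [bil, mul_one, mul_sum])) hpos

theorem bil_pos {q : Y → Y → ℝ} [Nonempty Y] (hq : ∀ a b, 0 < q a b) {v : Y → ℝ}
    (hv : ∀ a, 0 < v a) : 0 < bil q v v :=
  sum_pos (fun a _ => sum_pos (fun b _ => mul_pos (mul_pos (hv a) (hv b)) (hq a b))
    univ_nonempty) univ_nonempty

theorem hyp_pair {w : Y → Y → Y → ℝ} (hs1 : ∀ e a b, w e a b = w e b a)
    (hs2 : ∀ e a b, w e a b = w a e b) (hw : ∀ e a b, 0 < w e a b) (hh : ∀ e, Hyp (w e))
    (e₁ e₂ : Y) : Hyp fun a b => w e₁ a b + w e₂ a b := by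
  classical
  have : Nonempty Y := ⟨e₁⟩
  intro v hv x hx
  set q : Y → Y → ℝ := fun a b => w e₁ a b + w e₂ a b with hq
  set q1 : Y → Y → ℝ := fun a b => ∑ e, w e a b with hq1
  have hvv : 0 < bil q v v := bil_pos (fun a b => add_pos (hw _ _ _) (hw _ _ _)) hv
  have key : ∀ ε : ℝ, 0 < ε → (bil q x x + ε * bil q1 x x) * (bil q v v + ε * bil q1 v v) ≤
      (ε * bil q1 x v) ^ 2 := by
    intro ε hε
    set u : Y → ℝ := fun e => (if e = e₁ then 1 else 0) + (if e = e₂ then 1 else 0) + ε with hu
    have hup : ∀ e, 0 < u e := fun e => by simp only [hu]; split_ifs <;> linarith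
    have hpos : ∀ a b, 0 < ∑ e, u e * w e a b := fun a b =>
      sum_pos (fun e _ => mul_pos (hup e) (hw e a b)) univ_nonempty
    have h1 := hyp_step hs1 hs2 (fun e a b => (hw e a b).le) hh hup
      (fun a b _ _ => Or.inl (hpos a b).ne')
    have e1 : ∀ y z, bil (fun a b => ∑ e, u e * w e a b) y z = bil q y z + ε * bil q1 y z := by
      intro y z
      simp only [bil, mul_sum (a := ε), ← sum_add_distrib]
      refine sum_congr rfl fun a _ => sum_congr rfl fun b _ => ?_
      simp only [hu, add_mul, sum_add_distrib, ite_mul, one_mul, zero_mul, sum_ite_eq', mem_univ,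
        if_true, hq, hq1, ← mul_sum]
      ring
    have h2 := rcs h1 (fun a b => sum_congr rfl fun e _ => by rw [hs1]) (bil_pos hpos hv) x
    rwa [e1, e1, e1, hx, zero_add] at h2
  have lim : bil q x x * bil q v v ≤ 0 := by
    have c1 : Continuous fun ε : ℝ => (bil q x x + ε * bil q1 x x) * (bil q v v + ε * bil q1 v v) -
        (ε * bil q1 x v) ^ 2 := by fun_prop
    have := le_of_tendsto (c1.tendsto 0 |>.mono_left (nhdsWithin_le_nhds (s := Set.Ioi 0)))
      (eventually_mem_nhdsWithin.mono fun ε hε => sub_nonpos.2 (key ε hε))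
    simpa using this
  by_contra hc
  exact absurd lim (not_le.2 (mul_pos (not_le.1 hc) hvv))

/-- Positive weight functions all of whose two-element kernels are hyperbolic. -/
def Lor (G : Multiset Y → ℝ) : Prop :=
  (∀ s, 0 < G s) ∧ ∀ s, Hyp fun a b => G (a ::ₘ b ::ₘ s)

theorem Lor.link {G : Multiset Y → ℝ} (h : Lor G) (e : Y) : Lor (link e G) :=
  ⟨fun _ => h.1 _, fun s => by
    have := h.2 (e ::ₘ s)
    simp only [P317.link]
    have e1 : ∀ a b, e ::ₘ a ::ₘ b ::ₘ s = a ::ₘ b ::ₘ e ::ₘ s := fun a b => by
      rw [Multiset.cons_swap e a, Multiset.cons_swap e b]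
    simp only [e1]
    exact this⟩

theorem ker_hyp : ∀ (t : List (Y × Y)) {G : Multiset Y → ℝ}, Lor G →
    Hyp fun a b => S t (link a (link b G))
  | [], G, hG => by
    have := hG.2 0
    simp only [S, link]
    simp only [Multiset.cons_swap _ _ 0] at this ⊢
    exact this
  | l :: t, G, hG => by
    have e : (fun a b => S (l :: t) (link a (link b G))) = fun a b =>
        S t (link a (link b (link l.1 G))) + S t (link a (link b (link l.2 G))) := by
      funext a b
      simp only [S]
      rw [link_comm l.1 a, link_comm l.1 b, link_comm l.2 a, link_comm l.2 b]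
    rw [e]
    exact hyp_pair (w := fun e a b => S t (link a (link b (link e G))))
      (fun e a b => by rw [link_comm a b])
      (fun e a b => by rw [link_comm b e, link_comm a e, link_comm a b])
      (fun e a b => S_pos t fun _ => hG.1 _) (fun e => ker_hyp t (hG.link e)) l.1 l.2

/-- The derivative of a weight function along a signed vector. -/
def der (x : Y → ℝ) (G : Multiset Y → ℝ) : Multiset Y → ℝ := fun s => ∑ y, x y * G (y ::ₘ s)

theorem link_der (e : Y) (x : Y → ℝ) (G : Multiset Y → ℝ) :
    link e (der x G) = der x (link e G) := by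
  funext s; simp only [link, der, Multiset.cons_swap e]

theorem der_add [DecidableEq Y] (x : Y → ℝ) (γ : ℝ) (b : Y) (G : Multiset Y → ℝ) :
    der (fun y => x y + γ * if y = b then 1 else 0) G = fun s => 1 * der x G s + γ * link b G s := by
  funext s
  simp [der, link, add_mul, sum_add_distrib]

theorem der_lin (x : Y → ℝ) (α β : ℝ) (G G' : Multiset Y → ℝ) :
    der x (fun s => α * G s + β * G' s) = fun s => α * der x G s + β * der x G' s := by
  funext s
  simp only [der, mul_sum, ← sum_add_distrib]
  exact sum_congr rfl fun y _ => by ring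

theorem S_der (t : List (Y × Y)) (x : Y → ℝ) (G : Multiset Y → ℝ) :
    S t (der x G) = ∑ y, x y * S t (link y G) := by
  unfold der
  rw [S_sum]
  exact sum_congr rfl fun y _ => S_smul _ _ _

theorem bil_S (t : List (Y × Y)) (x z : Y → ℝ) (G : Multiset Y → ℝ) :
    bil (fun a b => S t (link a (link b G))) x z = S t (der x (der z G)) := by
  rw [S_der, bil]
  refine sum_congr rfl fun a _ => ?_
  rw [link_der, S_der, mul_sum]
  exact sum_congr rfl fun b _ => by rw [link_comm]; ring

theorem der_der_add [DecidableEq Y] (t : List (Y × Y)) (x : Y → ℝ) (γ : ℝ) (b : Y)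
    (G : Multiset Y → ℝ) :
    S t (der (fun y => x y + γ * if y = b then 1 else 0)
      (der (fun y => x y + γ * if y = b then 1 else 0) G)) =
      S t (der x (der x G)) + 2 * γ * S t (der x (link b G)) +
        γ ^ 2 * S t (link b (link b G)) := by
  rw [der_add, S_lin, link_der, der_add, der_add, der_lin, S_lin, S_lin]; ring

variable [DecidableEq Y]

/-- The energy: one term for each distinct slot type. -/
def En (t : List (Y × Y)) (G : Multiset Y → ℝ) (x : Y → ℝ) : ℝ :=
  ∑ l ∈ t.toFinset, -S (t.erase l) (der x (der x G))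

/-- The integrand of the Dirichlet form. -/
def dd (l : Y × Y) (G f : Multiset Y → ℝ) : Multiset Y → ℝ :=
  fun s => G (l.1 ::ₘ l.2 ::ₘ s) * (f (l.1 ::ₘ s) - f (l.2 ::ₘ s)) ^ 2

/-- The Dirichlet form. -/
def Dir (t : List (Y × Y)) (G f : Multiset Y → ℝ) : ℝ :=
  (t.map fun l => S (t.erase l) (dd l G f)).sum

omit [Fintype Y] [DecidableEq Y] in
theorem link_dd (e : Y) (l : Y × Y) (G f : Multiset Y → ℝ) :
    link e (dd l G f) = dd l (link e G) (link e f) := by
  funext s; simp only [link, dd, Multiset.cons_swap e]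

omit [Fintype Y] in
theorem Dir_cons (l : Y × Y) (t : List (Y × Y)) (G f : Multiset Y → ℝ) :
    Dir (l :: t) G f = S t (dd l G f) + (Dir t (link l.1 G) (link l.1 f) +
      Dir t (link l.2 G) (link l.2 f)) := by
  simp only [Dir, List.map_cons, List.sum_cons, List.erase_cons_head]
  rw [← List.sum_map_add]
  congr 2
  refine List.map_congr_left fun l' hl' => ?_
  rw [S_cons_erase l hl', link_dd, link_dd]

/-- The sharp flow lemma. -/
theorem flow : ∀ (t : List (Y × Y)) {G : Multiset Y → ℝ}, Lor G → ∀ x : Y → ℝ,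
    S t (der x G) = 0 → ∀ f : Multiset Y → ℝ,
    2 * S t (fun s => der x G s * f s) ≤ En t G x + Dir t G f
  | [], G, _, x, hx, f => by
    simp only [S] at hx ⊢
    simp [hx, En, Dir]
  | (a, b) :: t, G, hG, x, hx, f => by
    have hab : 0 < S t (link a (link b G)) := S_pos t fun _ => hG.1 _
    have haa : 0 < S t (link a (link a G)) := S_pos t fun _ => hG.1 _
    have hbb : 0 < S t (link b (link b G)) := S_pos t fun _ => hG.1 _
    simp only [S, link_der] at hx
    set γ := S t (der x (link a G)) / S t (link a (link b G)) with hγ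
    have g1 : γ * S t (link a (link b G)) = S t (der x (link a G)) := div_mul_cancel₀ _ hab.ne'
    set ua : Y → ℝ := fun y => x y + (-γ) * if y = b then 1 else 0 with hua
    set ub : Y → ℝ := fun y => x y + γ * if y = a then 1 else 0 with hub
    have ma : S t (der ua (link a G)) = 0 := by
      rw [hua, der_add, S_lin, link_comm b a]; linarith
    have mb : S t (der ub (link b G)) = 0 := by
      rw [hub, der_add, S_lin]; linarith
    have iha := flow t (hG.link a) ua ma (link a f)
    have ihb := flow t (hG.link b) ub mb (link b f)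
    have lhs : S ((a, b) :: t) (fun s => der x G s * f s) =
        S t (fun s => der ua (link a G) s * link a f s) +
        S t (fun s => der ub (link b G) s * link b f s) +
        S t (fun s => γ * (G (a ::ₘ b ::ₘ s) * (f (a ::ₘ s) - f (b ::ₘ s)))) := by
      simp only [S, ← S_add]
      congr 1
      funext s
      rw [hua, hub, der_add, der_add, ← link_der, ← link_der]
      simp only [link, Multiset.cons_swap b a]
      ring
    have swap : 2 * S t (fun s => γ * (G (a ::ₘ b ::ₘ s) * (f (a ::ₘ s) - f (b ::ₘ s)))) ≤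
        γ ^ 2 * S t (link a (link b G)) + S t (dd (a, b) G f) := by
      rw [← S_smul, ← S_smul, ← S_add]
      refine S_mono t fun s => ?_
      simp only [link, dd, Multiset.cons_swap b a]
      nlinarith [mul_nonneg (hG.1 (a ::ₘ b ::ₘ s)).le (sq_nonneg (γ - (f (a ::ₘ s) - f (b ::ₘ s))))]
    have pin : ∀ t' : List (Y × Y), S t' (der ua (der ua (link a G))) +
        S t' (der ub (der ub (link b G))) = S ((a, b) :: t') (der x (der x G)) +
          γ ^ 2 * S ((a, b) :: t') (link a (link b G)) := by
      intro t'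
      rw [hua, hub, der_der_add, der_der_add]
      simp only [S, link_der]
      rw [link_comm b a G]
      ring
    have cost : γ ^ 2 * S t (link a (link b G)) ≤ -S t (der x (der x G)) := by
      have h1 := rcs (ker_hyp t hG) (fun a b => by rw [link_comm])
        (v := fun y => if y = a then 1 else 0) (by simpa [bil] using haa) ua
      have e0 : ∀ H : Multiset Y → ℝ, der (fun y => if y = a then 1 else 0) H = link a H := by
        intro H; funext s; simp [der, link]
      rw [bil_S, bil_S, bil_S, e0, e0, ma, hua, der_der_add] at h1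
      have h2 : S t (der x (der x G)) + 2 * -γ * S t (der x (link b G)) +
          (-γ) ^ 2 * S t (link b (link b G)) ≤ 0 := by
        by_contra hc
        nlinarith [mul_pos (not_le.1 hc) haa]
      have h3 : S t (der x (link b G)) = -(γ * S t (link a (link b G))) := by linarith
      rw [h3] at h2
      nlinarith [mul_nonneg (sq_nonneg γ) hab.le, mul_nonneg (sq_nonneg γ) hbb.le]
    have en : γ ^ 2 * S t (link a (link b G)) + (En t (link a G) ua + En t (link b G) ub) ≤
        En ((a, b) :: t) G x := by
      simp only [En, ← sum_add_distrib, ← neg_add, pin]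
      have term : ∀ l ∈ t.toFinset, ∀ H, S ((a, b) :: t.erase l) H =
          S (((a, b) :: t).erase l) H := fun l hl H => by
        rw [S_cons_erase _ (List.mem_toFinset.1 hl)]; rfl
      have nn : ∀ l ∈ t.toFinset, 0 ≤ γ ^ 2 * S (((a, b) :: t).erase l) (link a (link b G)) :=
        fun l _ => mul_nonneg (sq_nonneg _) (S_pos _ fun _ => hG.1 _).le
      rw [sum_congr rfl fun l hl => by rw [term l hl, term l hl, neg_add], sum_add_distrib,
        sum_neg_distrib (f := fun l => γ ^ 2 * _), List.toFinset_cons]
      by_cases h : (a, b) ∈ t.toFinset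
      · rw [insert_eq_of_mem h]
        have := single_le_sum nn h
        rw [List.erase_cons_head] at this
        linarith
      · rw [sum_insert h, List.erase_cons_head]
        have := sum_nonneg nn
        linarith
    rw [lhs, Dir_cons]
    linarith

end Vale.Agent.P328
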