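import Vale.Agent.P328.Flow

/-! Products of log-concave functions of counts over a laminar family; sums over boxes. -/

namespace Vale.Agent.P328

open Finset Vale.Agent.P317

section
variable {Y I : Type} [Fintype Y] [Fintype I]

/-- Any two members are nested or disjoint. -/
def Laminar (p : I → Y → Bool) : Prop :=
  ∀ i j, (∀ y, p i y → p j y) ∨ (∀ y, p j y → p i y) ∨ ∀ y, p i y → ¬p j y

omit [Fintype I] in
theorem lam_nsd {p : I → Y → Bool} (hp : Laminar p) {δ : I → ℝ} (h0 : ∀ i, 0 ≤ δ i)
    (h1 : ∀ i, δ i ≤ 1) (J : Finset I) (x : Y → ℝ) (hx : ∑ y, x y = 0) :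
    bil (fun y y' => ∏ i ∈ J, if p i y ∧ p i y' then δ i else 1) x x ≤ 0 := by
  classical
  induction J using Finset.induction_on_min_value (fun i => (univ.filter fun y => p i y).card) with
  | empty => simp [bil, ← mul_sum, hx]
  | insert a s ha hmin ih =>
    set κ := ∏ i ∈ s, if ∀ z, p a z → p i z then δ i else 1 with hκ
    have hκ0 : 0 ≤ κ := prod_nonneg fun i _ => by split_ifs; exacts [h0 i, zero_le_one]
    have key : ∀ y y', (∏ i ∈ insert a s, if p i y ∧ p i y' then δ i else 1) =
        (∏ i ∈ s, if p i y ∧ p i y' then δ i else 1) -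
          κ * (1 - δ a) * ((if p a y then 1 else 0) * if p a y' then 1 else 0) := by
      intro y y'
      rw [prod_insert ha]
      by_cases h : p a y ∧ p a y'
      · have : (∏ i ∈ s, if p i y ∧ p i y' then δ i else 1) = κ := by
          refine prod_congr rfl fun i hi => if_congr ⟨fun hi' => ?_, fun h' => ⟨h' y h.1, h' y' h.2⟩⟩
            rfl rfl
          rcases hp a i with h2 | h2 | h2
          · exact h2
          · have := eq_of_subset_of_card_le (s := univ.filter fun y => p i y)
              (t := univ.filter fun y => p a y) (fun z hz => by simpa using h2 z (by simpa using hz))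
              (hmin i hi)
            intro z hz
            have h3 : z ∈ univ.filter fun y => p i y := by rw [this]; simpa using hz
            simpa using h3
          · exact absurd hi'.1 (h2 y h.1)
        rw [this, if_pos h, if_pos h.1, if_pos h.2]; ring
      · rw [if_neg h]
        rw [not_and_or] at h
        rcases h with h | h <;> simp [h]
    have e : bil (fun y y' => ∏ i ∈ insert a s, if p i y ∧ p i y' then δ i else 1) x x =
        bil (fun y y' => ∏ i ∈ s, if p i y ∧ p i y' then δ i else 1) x x -
          κ * (1 - δ a) * (∑ y, x y * if p a y then 1 else 0) ^ 2 := by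
      rw [sq, sum_mul_sum]
      simp only [bil, key, mul_sum, ← sum_sub_distrib]
      exact sum_congr rfl fun y _ => sum_congr rfl fun y' _ => by ring
    rw [e]
    have := mul_nonneg (mul_nonneg hκ0 (sub_nonneg.2 (h1 a)))
      (sq_nonneg (∑ y, x y * if p a y then 1 else 0))
    linarith

/-- The product of functions of the counts. -/
def LG (p : I → Y → Bool) (φ : I → ℕ → ℝ) : Multiset Y → ℝ :=
  fun s => ∏ i, φ i (s.countP fun y => p i y)

theorem lor_LG {p : I → Y → Bool} (hp : Laminar p) {φ : I → ℕ → ℝ} (h0 : ∀ i k, 0 < φ i k)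
    (hc : ∀ i k, φ i k * φ i (k + 2) ≤ φ i (k + 1) ^ 2) : Lor (LG p φ) := by
  have hpos : ∀ s, 0 < LG p φ s := fun s => prod_pos fun i _ => h0 _ _
  refine ⟨hpos, fun s => ?_⟩
  set c : I → ℕ := fun i => s.countP fun y => p i y with hcdef
  set ρ : Y → ℝ := fun y => ∏ i, if p i y then φ i (c i + 1) / φ i (c i) else 1 with hρ
  set δ : I → ℝ := fun i => φ i (c i) * φ i (c i + 2) / φ i (c i + 1) ^ 2 with hδ
  have key : ∀ y y', LG p φ (y ::ₘ y' ::ₘ s) =
      LG p φ s * (ρ y * ρ y' * ∏ i, if p i y ∧ p i y' then δ i else 1) := by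
    intro y y'
    simp only [LG, hρ, ← prod_mul_distrib, Multiset.countP_cons]
    refine prod_congr rfl fun i _ => ?_
    have a0 := (h0 i (c i)).ne'
    have a1 := (h0 i (c i + 1)).ne'
    by_cases h1 : p i y <;> by_cases h2 : p i y' <;> simp only [h1, h2, hδ, if_true, and_self,
      and_true, and_false, Bool.false_eq_true, if_false, add_zero, add_assoc] <;>
      change φ i _ = φ i (c i) * _ <;> field_simp <;> rfl
  refine hyp_of_functional (fun a b => by rw [Multiset.cons_swap]) (fun a b => (hpos _).le) ρ
    fun x hx => ?_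
  have h := lam_nsd hp (δ := δ)
    (fun i => div_nonneg (mul_pos (h0 _ _) (h0 _ _)).le (sq_nonneg _))
    (fun i => (div_le_one (pow_pos (h0 _ _) 2)).2 (hc _ _)) univ (fun y => x y * ρ y) hx
  have e : bil (fun a b => LG p φ (a ::ₘ b ::ₘ s)) x x = LG p φ s *
      bil (fun y y' => ∏ i, if p i y ∧ p i y' then δ i else 1) (fun y => x y * ρ y)
        (fun y => x y * ρ y) := by
    simp only [bil, key, mul_sum]
    exact sum_congr rfl fun y _ => sum_congr rfl fun y' _ => by ring
  rw [e]
  exact mul_nonpos_of_nonneg_of_nonpos (hpos s).le h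

end

/-- The box of tuples below `R`. -/
def box {D : ℕ} (R : Fin D → ℕ) : Finset (Fin D → ℕ) := Fintype.piFinset fun l => range (R l)

theorem mem_box {D : ℕ} {R X : Fin D → ℕ} : X ∈ box R ↔ ∀ l, X l < R l := by
  simp [box]

theorem sum_box_zero (R : Fin 0 → ℕ) (F : (Fin 0 → ℕ) → ℝ) : ∑ X ∈ box R, F X = F 0 := by
  have : box R = {0} := by
    ext X; simp only [mem_box, mem_singleton]
    exact ⟨fun _ => Subsingleton.elim _ _, fun _ l => l.elim0⟩
  rw [this, sum_singleton]

theorem sum_box_succ {D : ℕ} (R : Fin (D + 1) → ℕ) (F : (Fin (D + 1) → ℕ) → ℝ) :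
    ∑ X ∈ box R, F X = ∑ x ∈ range (R 0), ∑ X ∈ box (Fin.tail R), F (Fin.cons x X) := by
  rw [← sum_product']
  refine sum_nbij' (fun X => (X 0, Fin.tail X)) (fun p => Fin.cons p.1 p.2) ?_ ?_ ?_ ?_ ?_
  · intro X hX
    simp only [mem_product, mem_range, mem_box] at hX ⊢
    exact ⟨hX 0, fun l => hX l.succ⟩
  · intro p hp
    simp only [mem_product, mem_range, mem_box] at hp ⊢
    intro l
    refine Fin.cases ?_ (fun l => ?_) l
    · simpa using hp.1
    · exact hp.2 l
  · intro X _; simp
  · intro p _; simp
  · intro X _; simp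

variable {Y : Type}

theorem S_replicate (a b : Y) (t : List (Y × Y)) : ∀ (n : ℕ) (H : Multiset Y → ℝ),
    S (List.replicate n (a, b) ++ t) H = ∑ k ∈ range (n + 1), (n.choose k : ℝ) *
      S t fun s => H (Multiset.replicate k a + Multiset.replicate (n - k) b + s)
  | 0, H => by simp
  | n + 1, H => by
    rw [List.replicate_succ, List.cons_append, S, S_replicate a b t n, S_replicate a b t n,
      sum_choose_succ_mul (fun k j => S t fun s => H (Multiset.replicate k a +
        Multiset.replicate j b + s)), add_comm]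
    congr 1
    · refine sum_congr rfl fun k hk => ?_
      have : n + 1 - k = (n - k) + 1 := by have := mem_range.1 hk; omega
      simp only [link, this, Multiset.replicate_succ, Multiset.add_cons, Multiset.cons_add]
    · simp only [link, Multiset.replicate_succ, Multiset.cons_add]

/-- The list of slots. -/
def flat {D : ℕ} (a b : Fin D → Y) (N : Fin D → ℕ) : List (Y × Y) :=
  (List.ofFn fun l => List.replicate (N l) (a l, b l)).flatten

/-- The configuration with the given counts. -/
def cfg {D : ℕ} (a b : Fin D → Y) (N α : Fin D → ℕ) : Multiset Y :=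
  ∑ l, (Multiset.replicate (α l) (a l) + Multiset.replicate (N l - α l) (b l))

theorem S_flat : ∀ {D : ℕ} (a b : Fin D → Y) (N : Fin D → ℕ) (H : Multiset Y → ℝ),
    S (flat a b N) H =
      ∑ α ∈ box fun l => N l + 1, (∏ l, ((N l).choose (α l) : ℝ)) * H (cfg a b N α)
  | 0, a, b, N, H => by rw [sum_box_zero]; simp [flat, S, cfg]
  | D + 1, a, b, N, H => by
    rw [flat, List.ofFn_succ, List.flatten_cons, S_replicate, sum_box_succ]
    refine sum_congr rfl fun k _ => ?_
    have := S_flat (Fin.tail a) (Fin.tail b) (Fin.tail N) fun s =>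
      H (Multiset.replicate k (a 0) + Multiset.replicate (N 0 - k) (b 0) + s)
    simp only [flat, Fin.tail] at this
    rw [this, mul_sum]
    refine sum_congr rfl fun α _ => ?_
    simp only [cfg, Fin.prod_univ_succ, Fin.sum_univ_succ, Fin.cons_zero, Fin.cons_succ, Fin.tail]
    ring

theorem mem_flat {D : ℕ} {a b : Fin D → Y} {N : Fin D → ℕ} {l : Y × Y} (h : l ∈ flat a b N) :
    ∃ k, l = (a k, b k) := by
  simp only [flat, List.mem_flatten, List.mem_ofFn] at h
  obtain ⟨_, ⟨k, rfl⟩, h⟩ := h
  exact ⟨k, List.eq_of_mem_replicate h⟩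

theorem sum_flat {D : ℕ} (a b : Fin D → Y) (N : Fin D → ℕ) (g : Y × Y → ℝ) :
    ((flat a b N).map g).sum = ∑ l, N l * g (a l, b l) := by
  simp [flat, List.map_flatten, List.sum_flatten, List.sum_ofFn, List.map_ofFn, Function.comp_def]

theorem card_flat [DecidableEq Y] {D : ℕ} (a b : Fin D → Y) (N : Fin D → ℕ) :
    (flat a b N).toFinset.card ≤ D := by
  have : (flat a b N).toFinset ⊆ univ.image fun k => (a k, b k) := fun l hl => by
    obtain ⟨k, rfl⟩ := mem_flat (List.mem_toFinset.1 hl)
    exact mem_image.2 ⟨k, mem_univ _, rfl⟩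
  exact (card_le_card this).trans (card_image_le.trans (by simp))

theorem countP_cfg {D : ℕ} (a b : Fin D → Y) (N α : Fin D → ℕ) (p : Y → Prop) [DecidablePred p] :
    (cfg a b N α).countP p =
      ∑ l, ((if p (a l) then α l else 0) + if p (b l) then N l - α l else 0) := by
  have h : ∀ (n : ℕ) (y : Y), (Multiset.replicate n y).countP p = if p y then n else 0 := by
    intro n y
    induction n with
    | zero => simp
    | succ n ih => rw [Multiset.replicate_succ, Multiset.countP_cons, ih]; split_ifs <;> rfl
  rw [cfg, ← Multiset.coe_countPAddMonoidHom, map_sum]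
  simp only [Multiset.coe_countPAddMonoidHom, Multiset.countP_add, h]

/-- Restriction of a box sum to a shifted smaller box. -/
theorem sum_box_shift {D : ℕ} (N s R : Fin D → ℕ) (h : ∀ l, s l + R l ≤ N l + 1)
    (F : (Fin D → ℕ) → ℝ) (hF : ∀ α, (¬∀ l, s l ≤ α l ∧ α l < s l + R l) → F α = 0) :
    ∑ α ∈ box fun l => N l + 1, F α = ∑ X ∈ box R, F fun l => s l + X l := by
  classical
  rw [← sum_filter_of_ne (p := fun α => ∀ l, s l ≤ α l ∧ α l < s l + R l)
    fun α _ h0 => by by_contra hc; exact h0 (hF α hc)]
  refine sum_nbij' (fun α l => α l - s l) (fun X l => s l + X l) ?_ ?_ ?_ ?_ ?_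
  · intro α hα
    simp only [mem_filter, mem_box] at hα ⊢
    intro l; have := hα.2 l; omega
  · intro X hX
    simp only [mem_filter, mem_box] at hX ⊢
    exact ⟨fun l => by have := hX l; have := h l; omega, fun l => by have := hX l; omega⟩
  · intro α hα
    simp only [mem_filter, mem_box] at hα
    funext l; have := hα.2 l; simp only; omega
  · intro X _; funext l; simp
  · intro α hα
    simp only [mem_filter, mem_box] at hα
    congr 1
    funext l; have := hα.2 l; simp only; omega

end Vale.Agent.P328
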